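import Vale.Agent.P142.Main

open Complex Metric Set MeasureTheory Filter Topology

namespace Vale.Agent.Results.P142.Spectrum113

/-- `f` is holomorphic and injective on the open unit disc. -/
def Univalent (f : ℂ → ℂ) : Prop :=
  DifferentiableOn ℂ f (ball 0 1) ∧ InjOn f (ball 0 1)

/-- The class S. -/
def ClassS (f : ℂ → ℂ) : Prop :=
  Univalent f ∧ f 0 = 0 ∧ deriv f 0 = 1

/-- The integral mean of the `t`-th power of the modulus of `f'` on the circle of radius `r`. -/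
noncomputable def mean (f : ℂ → ℂ) (t r : ℝ) : ℝ :=
  1 / (2 * Real.pi) * ∫ θ in (-Real.pi)..Real.pi, ‖deriv f (r * exp (θ * I))‖ ^ t

/-- The exponent `β_f(t)`. -/
noncomputable def beta (f : ℂ → ℂ) (t : ℝ) : EReal :=
  limsup (fun r : ℝ => ((Real.log (mean f t r) / Real.log (1 / (1 - r)) : ℝ) : EReal)) (𝓝[<] 1)

/-- The universal integral means spectrum of the class S. -/
noncomputable def spectrumS (t : ℝ) : EReal :=
  ⨆ f ∈ {f | ClassS f}, beta f t

theorem mean_eq (f : ℂ → ℂ) (r : ℝ) : mean f (-2) r = Vale.Agent.P142.MM f r := by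
  rw [mean, Vale.Agent.P142.MM, Real.circleAverage_eq_integral_add (-Real.pi),
    intervalIntegral.integral_comp_add_right (fun θ => ‖(deriv f (circleMap 0 r θ))⁻¹‖ ^ 2),
    smul_eq_mul, one_div, zero_add, show 2 * Real.pi + -Real.pi = Real.pi by ring]
  refine congrArg _ (intervalIntegral.integral_congr fun θ _ => ?_)
  simp only [circleMap, zero_add]
  rw [Real.rpow_neg (norm_nonneg _), Real.rpow_two, norm_inv, inv_pow]

theorem bound {f : ℂ → ℂ} (hf : Univalent f) : ∃ C : ℝ, 0 < C ∧ ∀ r : ℝ, 0 < r → r < 1 →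
    0 < mean f (-2) r ∧ mean f (-2) r ≤ C * (1 - r) ^ (-(113 / 100) : ℝ) := by
  obtain ⟨C, C0, hC⟩ := Vale.Agent.P142.mainM hf.1 hf.2
  refine ⟨C, C0, fun r r0 r1 => ⟨?_, (mean_eq f r).trans_le (hC r r0 r1)⟩⟩
  have hm : ∀ θ : ℝ, ‖circleMap 0 r θ‖ < 1 := fun θ => by simpa [abs_of_pos r0] using r1
  rw [mean_eq]
  refine mul_pos (inv_pos.2 Real.two_pi_pos) (intervalIntegral.intervalIntegral_pos_of_pos_on
    (ContinuousOn.circleIntegrable r0.le ((Vale.Agent.P142.n_c hf.1 hf.2).mono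
      (sphere_subset_ball r1))) (fun θ _ => ?_) Real.two_pi_pos)
  exact pow_pos (norm_pos_iff.2 (inv_ne_zero (Vale.Agent.P142.d_ne hf.1 hf.2 (hm θ)))) 2

theorem beta_le {f : ℂ → ℂ} (hf : Univalent f) : beta f (-2) ≤ ((113 / 100 : ℝ) : EReal) := by
  obtain ⟨C, C0, hC⟩ := bound hf
  have h0 : Tendsto (fun r : ℝ => 1 - r) (𝓝[<] 1) (𝓝[>] 0) := by
    refine tendsto_nhdsWithin_iff.2 ⟨?_, eventually_nhdsWithin_of_forall fun r hr =>
      sub_pos.2 (show r < 1 from hr)⟩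
    have : Tendsto (fun r : ℝ => 1 - r) (𝓝 1) (𝓝 (1 - 1)) := tendsto_id.const_sub 1
    rw [sub_self] at this
    exact this.mono_left nhdsWithin_le_nhds
  have h1 : Tendsto (fun r : ℝ => Real.log (1 / (1 - r))) (𝓝[<] 1) atTop := by
    simp only [one_div]
    exact Real.tendsto_log_atTop.comp (tendsto_inv_nhdsGT_zero.comp h0)
  have h2 := (continuous_coe_real_ereal.tendsto _).comp
    ((h1.const_div_atTop (Real.log C)).add_const (113 / 100))
  rw [zero_add] at h2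
  rw [← h2.limsup_eq]
  refine limsup_le_limsup ?_
  filter_upwards [Ioo_mem_nhdsLT (zero_lt_one' ℝ), h1.eventually_gt_atTop 0] with r hr hL
  have d0 : 0 < 1 - r := sub_pos.2 hr.2
  obtain ⟨a, b⟩ := hC r hr.1 hr.2
  have := Real.log_le_log a b
  rw [Real.log_mul C0.ne' (by positivity), Real.log_rpow d0] at this
  refine EReal.coe_le_coe_iff.2 ?_
  rw [div_le_iff₀ hL, add_mul, div_mul_cancel₀ _ hL.ne', one_div, Real.log_inv]
  linarith

theorem result :
    spectrumS (-2) ≤ ((113 / 100 : ℝ) : EReal) ∧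
    (∀ f : ℂ → ℂ, Univalent f → ∃ C : ℝ, ∀ r : ℝ, 0 < r → r < 1 →
      0 < mean f (-2) r ∧ mean f (-2) r ≤ C * (1 - r) ^ (-(113 / 100) : ℝ)) ∧
    (∀ f : ℂ → ℂ, Univalent f → ∀ t : ℝ, -(200 / 113) < t → t ≤ 0 →
      (∀ z ∈ ball (0 : ℂ) 1, deriv f z ≠ 0) ∧
      IntegrableOn (fun z => ‖deriv f z‖ ^ t) (ball 0 1) volume) :=
  ⟨iSup₂_le fun _ hf => beta_le hf.1, fun _ hf => (bound hf).imp fun _ h => h.2,
    fun _ hf _ h1 h2 => ⟨fun _ hz => Vale.Agent.P142.d_ne hf.1 hf.2 (mem_ball_zero_iff.1 hz),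
      Vale.Agent.P142.integ hf.1 hf.2 h1 h2⟩⟩

end Vale.Agent.Results.P142.Spectrum113
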